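import Vale.Agent.P352.Bdl.B2

/-!
# Spectral measures: the atom at the origin, and matrix elements with two-sided spectrum
-/

set_option maxSynthPendingDepth 3

open MeasureTheory SchwartzMap Complex Filter Topology
open scoped SchwartzMap ComplexConjugate ENNReal LineDeriv

namespace Vale.Agent.P352.H804

open GF (Ix V Fn Sch ev pd bar sim one bas o)

variable {D : Type*} [NormedAddCommGroup D] [InnerProductSpace ℂ D]

/-- the spectral measure of a vector -/
noncomputable def sm (Q : GF.Theory D) (v : D) : Measure Mink := (spec_meas Q v).choose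

instance (Q : GF.Theory D) (v : D) : IsFiniteMeasure (sm Q v) := (spec_meas Q v).choose_spec.1

lemma sm_cone (Q : GF.Theory D) (v : D) : sm Q v fwdConeᶜ = 0 := (spec_meas Q v).choose_spec.2.1

lemma sm_spec (Q : GF.Theory D) (v : D) (a : Mink) :
    inner ℂ v (Q.U 1 one a.ofLp v) = ∫ p, chr a p ∂(sm Q v) := (spec_meas Q v).choose_spec.2.2 a

variable {Q : GF.Theory D}

lemma integrable_chr (ν : Measure Mink) [IsFiniteMeasure ν] (a : Mink) :
    Integrable (fun p => chr a p) ν := by
  have := integrable_chr_mul (μ := ν) (φ := fun _ => 1) (integrable_const _) a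
  simpa using this

lemma sm_add_sub (v w : D) : sm Q (v + w) + sm Q (v - w) =
    sm Q v + sm Q v + (sm Q w + sm Q w) := by
  apply measure_ext_chr
  intro a
  have i := fun x : D => integrable_chr (sm Q x) a
  rw [integral_add_measure (i _) (i _), integral_add_measure ((i _).add_measure (i _))
    ((i _).add_measure (i _)), integral_add_measure (i _) (i _), integral_add_measure (i _) (i _)]
  simp only [← sm_spec]
  have e : v - w = v + (-1 : ℂ) • w := by simp [sub_eq_add_neg]
  rw [e]
  simp only [U_add one_pos isLor_one, U_smul one_pos isLor_one, inner_add_left, inner_add_right,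
    inner_smul_left, inner_smul_right, map_neg, map_one]
  ring

/-- mass of the spectral measure at the origin -/
noncomputable def at0 (Q : GF.Theory D) (v : D) : ℝ := (sm Q v {0}).toReal

lemma at0_nonneg (v : D) : 0 ≤ at0 Q v := ENNReal.toReal_nonneg

lemma at0_add_sub (v w : D) : at0 Q (v + w) + at0 Q (v - w) = 2 * at0 Q v + 2 * at0 Q w := by
  have h := congrArg (fun μ : Measure Mink => (μ {(0 : Mink)}).toReal) (sm_add_sub (Q := Q) v w)
  simp only [Measure.add_apply] at h
  rw [ENNReal.toReal_add (measure_ne_top _ _) (measure_ne_top _ _), ENNReal.toReal_add (by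
    simp [measure_ne_top]) (by simp [measure_ne_top]), ENNReal.toReal_add (measure_ne_top _ _)
    (measure_ne_top _ _), ENNReal.toReal_add (measure_ne_top _ _) (measure_ne_top _ _)] at h
  unfold at0
  linarith

/-- a sequence with vanishing second differences which is bounded below on both sides -/
lemma const_of_affine (f : ℤ → ℝ) (h0 : ∀ n, 0 ≤ f n)
    (h : ∀ n, f (n + 1) + f (n - 1) = 2 * f n) : f 1 = f 0 := by
  have key : ∀ n : ℕ, f n = f 0 + n * (f 1 - f 0) ∧ f (n + 1) = f 0 + (n + 1) * (f 1 - f 0) := by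
    intro n
    induction n with
    | zero => simp
    | succ n ih =>
      refine ⟨by push_cast; linarith [ih.2], ?_⟩
      have h1 := h (n + 1)
      rw [add_sub_cancel_right] at h1
      push_cast
      linarith [ih.1, ih.2]
  have key' : ∀ n : ℕ, f (-n) = f 0 - n * (f 1 - f 0) ∧
      f (-n - 1) = f 0 - (n + 1) * (f 1 - f 0) := by
    intro n
    induction n with
    | zero =>
      have h1 := h 0
      simp only [zero_add, zero_sub] at h1
      simp only [Nat.cast_zero, neg_zero, zero_mul, sub_zero, zero_sub, true_and]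
      linarith
    | succ n ih =>
      have h1 := h (-n - 1)
      rw [sub_add_cancel] at h1
      have e1 : (-((n + 1 : ℕ) : ℤ)) = -n - 1 := by push_cast; ring
      refine ⟨?_, ?_⟩
      · rw [e1]
        push_cast
        linarith [ih.2]
      · rw [e1]
        push_cast
        linarith [ih.1, ih.2]
  by_contra hne
  rcases lt_or_gt_of_ne hne with hlt | hgt
  · obtain ⟨n, hn⟩ := exists_nat_gt (f 0 / (f 0 - f 1))
    have h1 := h0 n
    rw [(key n).1] at h1
    rw [div_lt_iff₀ (by linarith)] at hn
    linarith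
  · obtain ⟨n, hn⟩ := exists_nat_gt (f 0 / (f 1 - f 0))
    have h1 := h0 (-n)
    rw [(key' n).1] at h1
    rw [div_lt_iff₀ (by linarith)] at hn
    linarith

lemma at0_add (v w : D) (hw : at0 Q w = 0) : at0 Q (v + w) = at0 Q v := by
  have h := const_of_affine (fun n : ℤ => at0 Q (v + (n : ℂ) • w)) (fun n => at0_nonneg _) (by
    intro n
    have e1 : v + ((n + 1 : ℤ) : ℂ) • w = (v + (n : ℂ) • w) + w := by
      push_cast; module
    have e2 : v + ((n - 1 : ℤ) : ℂ) • w = (v + (n : ℂ) • w) - w := by
      push_cast; module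
    simp only [e1, e2]
    rw [at0_add_sub, hw]
    ring)
  simpa using h

lemma at0_smul (c : ℂ) (w : D) (hw : at0 Q w = 0) : at0 Q (c • w) = 0 := by
  have hm : sm Q (c • w) = ENNReal.ofReal (‖c‖ ^ 2) • sm Q w := by
    have : IsFiniteMeasure (ENNReal.ofReal (‖c‖ ^ 2) • sm Q w) :=
      Measure.smul_finite _ ENNReal.ofReal_ne_top
    apply measure_ext_chr
    intro a
    rw [integral_smul_measure, ← sm_spec, ← sm_spec, U_smul one_pos isLor_one, inner_smul_left,
      inner_smul_right, ENNReal.toReal_ofReal (by positivity), ← mul_assoc, mul_comm (conj c),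
      mul_conj, normSq_eq_norm_sq, real_smul]
  unfold at0 at hw ⊢
  rw [hm, Measure.smul_apply, smul_eq_mul, ENNReal.toReal_mul, hw, mul_zero]

lemma eq_zero_of_cone {p : Mink} (h1 : p ∈ fwdCone) (h2 : -p ∈ fwdCone) : p = 0 := by
  have a1 : 0 ≤ p 0 := h1.1
  have a2 : 0 ≤ -(p 0) := h2.1
  have a0 : p 0 = 0 := by linarith
  have h3 := h1.2
  simp only [mdot, a0] at h3
  have n1 : p 1 = 0 := by nlinarith [sq_nonneg (p 1), sq_nonneg (p 2), sq_nonneg (p 3)]
  have n2 : p 2 = 0 := by nlinarith [sq_nonneg (p 1), sq_nonneg (p 2), sq_nonneg (p 3)]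
  have n3 : p 3 = 0 := by nlinarith [sq_nonneg (p 1), sq_nonneg (p 2), sq_nonneg (p 3)]
  exact mink_ext a0 n1 n2 n3

lemma chr_zero_right (a : Mink) : chr a 0 = 1 := by
  simp [chr, mdot]

lemma chr_neg_right (a p : Mink) : chr a (-p) = conj (chr a p) := by
  rw [← chr_neg]
  simp only [chr, mdot, PiLp.neg_apply]
  congr 2
  push_cast
  ring

/-- If two spectral representations, one with spectrum in the forward and one with spectrum in the
backward cone, agree and one of the vectors has no atom at the origin, the matrix element is zero. -/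
theorem kill_of_two_sided (x y x' y' : D) (hx : at0 Q x = 0)
    (h : ∀ a : Mink, conj (inner ℂ y (Q.U 1 one a.ofLp x)) = inner ℂ y' (Q.U 1 one a.ofLp x'))
    (a : Mink) : inner ℂ y (Q.U 1 one a.ofLp x) = 0 := by
  -- polarization
  have pol : ∀ (u v : D) (b : Mink), 4 * inner ℂ u (Q.U 1 one b.ofLp v) =
      (∫ p, chr b p ∂(sm Q (u + v))) - I * (∫ p, chr b p ∂(sm Q (u + I • v))) -
      (∫ p, chr b p ∂(sm Q (u + (-1 : ℂ) • v))) + I * ∫ p, chr b p ∂(sm Q (u + (-I) • v)) := by
    intro u v b
    simp only [← sm_spec, U_add one_pos isLor_one, inner_add_right, inner_add_left,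
      U_smul one_pos isLor_one, inner_smul_left, conj_I, inner_smul_right, map_neg, map_one]
    ring_nf
    simp only [I_sq]
    ring
  set n0 := sm Q (y + x) with hn0
  set n1 := sm Q (y + I • x) with hn1
  set n2 := sm Q (y + (-1 : ℂ) • x) with hn2
  set n3 := sm Q (y + (-I) • x) with hn3
  set k0 := sm Q (y' + x') with hk0
  set k1 := sm Q (y' + I • x') with hk1
  set k2 := sm Q (y' + (-1 : ℂ) • x') with hk2
  set k3 := sm Q (y' + (-I) • x') with hk3
  have hneg : Measurable (fun p : Mink => -p) := measurable_neg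
  have fin : ∀ (n : Measure Mink) [IsFiniteMeasure n], IsFiniteMeasure (n.map fun p => -p) :=
    fun n _ => Measure.isFiniteMeasure_map n _
  -- Fourier transform of the reflected measure
  have refl : ∀ (n : Measure Mink) [IsFiniteMeasure n] (b : Mink),
      ∫ p, chr b p ∂(n.map fun p => -p) = conj (∫ p, chr b p ∂n) := by
    intro n _ b
    rw [integral_map hneg.aemeasurable (continuous_chr b).aestronglyMeasurable, ← integral_conj]
    simp only [chr_neg_right]
  have conj_int : ∀ (n : Measure Mink) [IsFiniteMeasure n] (b : Mink),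
      ∫ p, chr (-b) p ∂n = conj (∫ p, chr b p ∂n) := by
    intro n _ b
    rw [← integral_conj]
    simp only [chr_neg]
  set F : Measure Mink → Mink → ℂ := fun n b => ∫ p, chr b p ∂n with hF
  have rel : ∀ b, conj (F n0 b) + I * conj (F n1 b) - conj (F n2 b) - I * conj (F n3 b) =
      F k0 b - I * F k1 b - F k2 b + I * F k3 b := by
    intro b
    have h1 := congrArg (fun z : ℂ => 4 * z) (h b)
    simp only at h1
    rw [pol y' x' b] at h1
    have h2 : (4 : ℂ) * conj (inner ℂ y (Q.U 1 one b.ofLp x)) =
        conj (4 * inner ℂ y (Q.U 1 one b.ofLp x)) := by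
      rw [map_mul]; congr 1; exact (Complex.conj_ofNat 4).symm
    rw [h2, pol y x b] at h1
    simp only [map_sub, map_add, map_mul, conj_I] at h1
    simp only [hF]
    linear_combination h1
  have relc : ∀ b, F n0 b + I * F n1 b - F n2 b - I * F n3 b =
      conj (F k0 b) - I * conj (F k1 b) - conj (F k2 b) + I * conj (F k3 b) := by
    intro b
    have h1 := rel (-b)
    simp only [hF, conj_int, conj_conj] at h1 ⊢
    exact h1
  have relR : ∀ b, conj (F n0 b) + F k2 b = conj (F n2 b) + F k0 b := by
    intro b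
    have h1 := rel b
    have h2 := congrArg conj (relc b)
    simp only [map_sub, map_add, map_mul, conj_I, conj_conj] at h2
    linear_combination (1 / 2 : ℂ) * h1 + (1 / 2 : ℂ) * h2
  have relI : ∀ b, conj (F n1 b) + F k1 b = conj (F n3 b) + F k3 b := by
    intro b
    have h1 := rel b
    have h2 := congrArg conj (relc b)
    simp only [map_sub, map_add, map_mul, conj_I, conj_conj] at h2
    have h3 : I * (conj (F n1 b) + F k1 b - (conj (F n3 b) + F k3 b)) = 0 := by
      linear_combination (1 / 2 : ℂ) * h1 - (1 / 2 : ℂ) * h2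
    exact sub_eq_zero.1 ((mul_eq_zero.1 h3).resolve_left I_ne_zero)
  have mR : (n0.map fun p => -p) + k2 = (n2.map fun p => -p) + k0 := by
    have := fin n0
    have := fin n2
    apply measure_ext_chr
    intro b
    rw [integral_add_measure (integrable_chr _ b) (integrable_chr _ b),
      integral_add_measure (integrable_chr _ b) (integrable_chr _ b), refl, refl]
    exact relR b
  have mI : (n1.map fun p => -p) + k1 = (n3.map fun p => -p) + k3 := by
    have := fin n1
    have := fin n3
    apply measure_ext_chr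
    intro b
    rw [integral_add_measure (integrable_chr _ b) (integrable_chr _ b),
      integral_add_measure (integrable_chr _ b) (integrable_chr _ b), refl, refl]
    exact relI b
  -- away from the origin the measures agree
  have off : ∀ (n n' k k' : Measure Mink), n fwdConeᶜ = 0 → n' fwdConeᶜ = 0 →
      k fwdConeᶜ = 0 → k' fwdConeᶜ = 0 →
      (n.map fun p => -p) + k = (n'.map fun p => -p) + k' →
      n.restrict {0}ᶜ = n'.restrict {0}ᶜ := by
    intro n n' k k' cn cn' ck ck' he
    ext S hS
    have h0 : MeasurableSet ({(0 : Mink)}ᶜ : Set Mink) := (measurableSet_singleton 0).compl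
    rw [Measure.restrict_apply hS, Measure.restrict_apply hS]
    set E : Set Mink := S ∩ {0}ᶜ ∩ fwdCone with hE
    have hEm : MeasurableSet E := (hS.inter h0).inter measurableSet_fwdCone
    have red : ∀ m : Measure Mink, m fwdConeᶜ = 0 → m (S ∩ {0}ᶜ) = m E := by
      intro m hm
      exact (measure_inter_conull hm).symm
    rw [red n cn, red n' cn']
    have h1 := congrArg (fun m : Measure Mink => m ((fun p : Mink => -p) ⁻¹' E)) he
    have hEm' : MeasurableSet ((fun p : Mink => -p) ⁻¹' E) := hneg hEm
    have hpre : (fun p : Mink => -p) ⁻¹' ((fun p : Mink => -p) ⁻¹' E) = E := by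
      ext p; simp
    simp only [Measure.add_apply, Measure.map_apply hneg hEm', hpre] at h1
    have kz : ∀ m : Measure Mink, m fwdConeᶜ = 0 → m ((fun p : Mink => -p) ⁻¹' E) = 0 := by
      intro m hm
      refine measure_mono_null ?_ hm
      intro p hp hc
      have hp' : -p ∈ E := hp
      have : p = 0 := eq_zero_of_cone hc hp'.2
      exact hp'.1.2 (by simp [this])
    rw [kz k ck, kz k' ck', add_zero, add_zero] at h1
    exact h1
  have o02 := off n0 n2 k2 k0 (sm_cone _ _) (sm_cone _ _) (sm_cone _ _) (sm_cone _ _) mR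
  have o13 := off n1 n3 k1 k3 (sm_cone _ _) (sm_cone _ _) (sm_cone _ _) (sm_cone _ _) mI
  have h0 : MeasurableSet ({(0 : Mink)} : Set Mink) := measurableSet_singleton 0
  have split : ∀ (n : Measure Mink) [IsFiniteMeasure n] (b : Mink),
      F n b = ((n {0}).toReal : ℂ) + ∫ p in {0}ᶜ, chr b p ∂n := by
    intro n _ b
    simp only [hF]
    rw [← integral_add_compl h0 (integrable_chr n b)]
    congr 1
    rw [integral_singleton, chr_zero_right]
    simp [Measure.real]
  have e0 : (n0 {0}).toReal = at0 Q y := at0_add y x hx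
  have e1 : (n1 {0}).toReal = at0 Q y := at0_add y (I • x) (at0_smul I x hx)
  have e2 : (n2 {0}).toReal = at0 Q y := at0_add y ((-1 : ℂ) • x) (at0_smul _ x hx)
  have e3 : (n3 {0}).toReal = at0 Q y := at0_add y ((-I) • x) (at0_smul _ x hx)
  have h4 := pol y x a
  have f0 := split n0 a
  have f1 := split n1 a
  have f2 := split n2 a
  have f3 := split n3 a
  rw [e0, o02] at f0
  rw [e1, o13] at f1
  rw [e2] at f2
  rw [e3] at f3
  have h5 : 4 * inner ℂ y (Q.U 1 one a.ofLp x) = 0 := by
    rw [h4]
    change F n0 a - I * F n1 a - F n2 a + I * F n3 a = 0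
    rw [f0, f1, f2, f3]
    ring
  exact (mul_eq_zero.1 h5).resolve_left (by norm_num)

/-- A vector whose translates have matrix elements with spectrum in both cones is invariant. -/
theorem fixed_of_two_sided (x x' : D) (hx0 : Q.U 1 one (0 : Mink).ofLp x = x)
    (h : ∀ a : Mink, inner ℂ x (Q.U 1 one a.ofLp x) = conj (inner ℂ x' (Q.U 1 one a.ofLp x')))
    (a : Mink) : Q.U 1 one a.ofLp x = x := by
  have hneg : Measurable (fun p : Mink => -p) := measurable_neg
  have : IsFiniteMeasure ((sm Q x').map fun p => -p) := Measure.isFiniteMeasure_map _ _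
  have hm : sm Q x = (sm Q x').map fun p => -p := by
    apply measure_ext_chr
    intro b
    rw [← sm_spec, h b, sm_spec, integral_map hneg.aemeasurable
      (continuous_chr b).aestronglyMeasurable, ← integral_conj]
    simp only [chr_neg_right]
  have h0 : MeasurableSet ({(0 : Mink)} : Set Mink) := measurableSet_singleton 0
  have hz : sm Q x {0}ᶜ = 0 := by
    have e : sm Q x {0}ᶜ = sm Q x ({0}ᶜ ∩ fwdCone) := (measure_inter_conull (sm_cone Q x)).symm
    rw [e, hm, Measure.map_apply hneg (h0.compl.inter measurableSet_fwdCone)]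
    refine measure_mono_null ?_ (sm_cone Q x')
    intro p hp hc
    have hp' : -p ∈ ({0}ᶜ ∩ fwdCone : Set Mink) := hp
    have : p = 0 := eq_zero_of_cone hc hp'.2
    exact hp'.1 (by simp [this])
  have val : ∀ b : Mink, inner ℂ x (Q.U 1 one b.ofLp x) = ((sm Q x {0}).toReal : ℂ) := by
    intro b
    rw [sm_spec, ← integral_add_compl h0 (integrable_chr (sm Q x) b), integral_singleton,
      chr_zero_right, setIntegral_measure_zero _ hz]
    simp [Measure.real]
  have v0 := val 0
  rw [hx0] at v0
  have va := val a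
  have h5 : inner ℂ (Q.U 1 one a.ofLp x - x) (Q.U 1 one a.ofLp x - x) = (0 : ℂ) := by
    have h6 : inner ℂ (Q.U 1 one a.ofLp x) x = ((sm Q x {0}).toReal : ℂ) := by
      rw [← inner_conj_symm, va, conj_ofReal]
    simp only [inner_sub_left, inner_sub_right, Q.U_inner 1 one a.ofLp _ _ one_pos isLor_one,
      v0, va, h6]
    ring
  exact sub_eq_zero.1 (inner_self_eq_zero.1 h5)

variable {T : Ix → Ix → GF.Fld D} {A : GF.Fld D} {d : ℝ}

/-- one-particle vectors have no atom at the origin -/
lemma at0_field (hA : PField Q T A d) (hd : 0 < d) (g : 𝓢(Mink, ℂ)) :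
    at0 Q (A (fl g) Q.vac) = 0 := by
  have S : SpecData (fun g => hA.kap g) (fun g => sm Q (A (fl g) Q.vac)) := by
    refine ⟨?_, fun g => inferInstance, fun g => sm_cone Q _, ?_, ?_⟩
    · intro g k c hc
      exact ⟨conv_integrable hA.kap g k, conv_identity hA.kap g k c hc⟩
    · intro g a
      rw [hA.inner_kap, hA.kap_tauS, sm_spec]
    · intro f g a
      rw [hA.inner_kap, hA.inner_kap, hA.kap_tauS, hA.kap_tauS,
        Q.U_inner _ _ _ _ _ one_pos isLor_one]
  obtain ⟨μ, hμ, hdens⟩ := S.sym (d := d)
    (fun L hL f g => by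
      rw [hA.inner_kap, hA.inner_kap, hA.cov_vac 1 one_pos hL 0 f, hA.cov_vac 1 one_pos hL 0 g,
        simS_lam, simS_lam]
      simp only [Real.one_rpow, ofReal_one, one_smul]
      rw [Q.U_inner _ _ _ _ _ one_pos hL])
    (fun s hs f g => by
      rw [hA.inner_kap, hA.inner_kap, hA.cov_vac s hs isLor_one 0 f,
        hA.cov_vac s hs isLor_one 0 g, simS_scale, simS_scale, inner_smul_left, inner_smul_right,
        conj_ofReal, Q.U_inner _ _ _ _ _ hs isLor_one]
      push_cast
      ring)
  have h1 : sm Q (A (fl g) Q.vac) = μ.withDensity (dens g) := hdens g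
  unfold at0
  rw [h1, withDensity_apply _ (measurableSet_singleton 0),
    setLIntegral_measure_zero _ _ (hμ.null_origin hd), ENNReal.toReal_zero]

/-- covariance of the operators under translations -/
lemma U_op (hA : PField Q T A d) (f : 𝓢(Mink, ℂ)) (a : Mink) (v : D) :
    Q.U 1 one a.ofLp (A (fl f) v) = A (fl (tauS a f)) (Q.U 1 one a.ofLp v) := by
  have h := hA.cov 1 one_pos one isLor_one a.ofLp (tauS a f) v
  rw [simS_tauS, Real.one_rpow, ofReal_one, one_smul] at h
  exact h.symm

lemma U_zero_op (hA : PField Q T A d) (f : 𝓢(Mink, ℂ)) (v : D)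
    (hv : Q.U 1 one (0 : Mink).ofLp v = v) :
    Q.U 1 one (0 : Mink).ofLp (A (fl f) v) = A (fl f) v := by
  rw [U_op hA, tauS_zero', hv]

lemma U_vac_zero : Q.U 1 one (0 : Mink).ofLp Q.vac = Q.vac := Q.U_vac 1 one _ one_pos isLor_one

end Vale.Agent.P352.H804
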