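import Vale.Agent.P352.GFDefs

/-!
# Truncated vacuum expectation values of arbitrary order; uniqueness of the vacuum
-/

namespace Vale.Agent.P352.H804

open GF

noncomputable section

/-- All ways to split a list in two complementary sublists. -/
def splits {α : Type*} : List α → List (List α × List α)
  | [] => [([], [])]
  | a :: l => (splits l).map (fun p => (a :: p.1, p.2)) ++ (splits l).map (fun p => (p.1, a :: p.2))

variable {D : Type*} [NormedAddCommGroup D] [InnerProductSpace ℂ D] (Q : Theory D)

/-- The vacuum expectation value `⟨A(f₁) ⋯ A(fₙ)⟩`. -/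
def vev (A : Fld D) (l : List Sch) : ℂ := inner ℂ Q.vac (l.foldr (fun f v => A (ev f) v) Q.vac)

/-- The numbers `t (f₁, …, fₙ)`, `n ≥ 1`, are the truncated vacuum expectation values of `A`:
`⟨A(f) A(f₁) ⋯ A(fₙ)⟩` is the sum of `t (f, f_S) * ⟨A(f_S')⟩` over all partitions of `{1, …, n}` in
two sets `S`, `S'` (possibly empty, the order of the test functions is kept). -/
def IsTruncated (A : Fld D) (t : List Sch → ℂ) : Prop :=
  ∀ f l, vev Q A (f :: l) = ((splits l).map fun p => t (f :: p.1) * vev Q A p.2).sum

/-- The truncated `n`-point function of `A` vanishes. -/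
def TruncVanish (A : Fld D) (n : ℕ) : Prop :=
  ∃ t, IsTruncated Q A t ∧ ∀ l, l.length = n → t l = 0

/-- The vacuum is the only translation invariant vector, up to multiples. -/
def UniqueVacuum : Prop := ∀ v, (∀ a, Q.U 1 one a v = v) → ∃ c : ℂ, v = c • Q.vac

end

end Vale.Agent.P352.H804
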