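import Vale.Agent.P352.H804.Scal

/-!
# One vanishing even truncated function makes a field generalized free
-/

set_option maxSynthPendingDepth 3

open MeasureTheory SchwartzMap Complex Filter Topology
open scoped SchwartzMap ComplexConjugate ENNReal LineDeriv

namespace Vale.Agent.P352.H804

open GF (Ix V Fn Sch ev pd bar sim one bas o)

variable {D : Type*} [NormedAddCommGroup D] [InnerProductSpace ℂ D] {Q : GF.Theory D}
  {T : Ix → Ix → GF.Fld D} {A : GF.Fld D} {d : ℝ}

/-- two point function -/
noncomputable def W2 (hA : PField Q T A d) (f g : 𝓢(Mink, ℂ)) : ℂ :=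
  inner ℂ Q.vac (hA.op f (hA.op g Q.vac))

/-- truncated four point function of a field with vanishing one point function -/
noncomputable def W4 (hA : PField Q T A d) (f g h k : 𝓢(Mink, ℂ)) : ℂ :=
  inner ℂ Q.vac (hA.op f (hA.op g (hA.op h (hA.op k Q.vac)))) -
    (W2 hA f g * W2 hA h k + W2 hA f h * W2 hA g k + W2 hA f k * W2 hA g h)

lemma inner_vac_vac (Q : GF.Theory D) : inner ℂ Q.vac Q.vac = (1 : ℂ) := by
  rw [inner_self_eq_norm_sq_to_K, Q.norm_vac]; simp

lemma conjS_conjS (f : 𝓢(Mink, ℂ)) : conjS (conjS f) = f := by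
  ext x
  simp [conjS_apply]

lemma inner_op (hA : PField Q T A d) (f : 𝓢(Mink, ℂ)) (v w : D) :
    inner ℂ (hA.op f v) w = inner ℂ v (hA.op (conjS f) w) := adj_op hA f v w

lemma comm_of_lev (hA : PField Q T A d) (h1 : Lev hA 1) {f g : 𝓢(Mink, ℂ)}
    (hf : HasCompactSupport f) (hg : HasCompactSupport g) (v : D) :
    hA.op f (hA.op g v) = hA.op g (hA.op f v) + (W2 hA f g - W2 hA g f) • v := by
  obtain ⟨c, hc⟩ := h1 g [f] hg (fun x hx => by rw [List.mem_singleton.1 hx]; exact hf) rfl
  have h2 : ∀ u, hA.op f (hA.op g u) - hA.op g (hA.op f u) = c • u := by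
    intro u
    have := congrArg (fun X : Module.End ℂ D => X u) hc
    simpa [nest] using this
  have h3 : c = W2 hA f g - W2 hA g f := by
    have := congrArg (fun u => inner ℂ Q.vac u) (h2 Q.vac)
    simp only [inner_sub_right, inner_smul_right, inner_vac_vac, mul_one] at this
    exact this.symm
  rw [← h3, ← h2 v]
  abel

theorem W4_compact (hA : PField Q T A d) (hd : 0 < d) (h1 : Lev hA 1) {f g h k : 𝓢(Mink, ℂ)}
    (hf : HasCompactSupport f) (hg : HasCompactSupport g) (hh : HasCompactSupport h)
    (hk : HasCompactSupport k) : W4 hA f g h k = 0 := by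
  set ξ : D := hA.op g (hA.op h (hA.op k Q.vac)) - W2 hA h k • hA.op g Q.vac -
    W2 hA g k • hA.op h Q.vac - W2 hA g h • hA.op k Q.vac with hξ
  set ξ' : D := hA.op (conjS k) (hA.op (conjS h) (hA.op (conjS g) Q.vac)) -
    conj (W2 hA g h) • hA.op (conjS k) Q.vac - conj (W2 hA g k) • hA.op (conjS h) Q.vac -
    conj (W2 hA h k) • hA.op (conjS g) Q.vac with hξ'
  have hstar : ∀ F : 𝓢(Mink, ℂ), HasCompactSupport F →
      inner ℂ Q.vac (hA.op F ξ) = inner ℂ ξ' (hA.op F Q.vac) := by
    intro F hF
    have e1 : inner ℂ Q.vac (hA.op F ξ) =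
        inner ℂ Q.vac (hA.op F (hA.op g (hA.op h (hA.op k Q.vac)))) - W2 hA h k * W2 hA F g -
        W2 hA g k * W2 hA F h - W2 hA g h * W2 hA F k := by
      simp only [hξ, map_sub, map_smul, inner_sub_right, inner_smul_right]
      rfl
    have e2 : inner ℂ ξ' (hA.op F Q.vac) =
        inner ℂ Q.vac (hA.op g (hA.op h (hA.op k (hA.op F Q.vac)))) - W2 hA g h * W2 hA k F -
        W2 hA g k * W2 hA h F - W2 hA h k * W2 hA g F := by
      simp only [hξ', inner_sub_left, inner_smul_left, conj_conj, inner_op, conjS_conjS]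
      rfl
    rw [e1, e2, comm_of_lev hA h1 hF hg, comm_of_lev hA h1 hF hh, comm_of_lev hA h1 hF hk]
    simp only [map_add, map_smul, inner_add_right, inner_smul_right]
    simp only [W2]
    ring
  have hz := kill_of_two_sided (Q := Q) (hA.op (conjS f) Q.vac) ξ (hA.op f Q.vac) ξ'
    (at0_field hA hd (conjS f)) (fun b => by
      have u1 : Q.U 1 one b.ofLp (hA.op (conjS f) Q.vac) = hA.op (conjS (tauS b f)) Q.vac := by
        have := U_op hA (conjS f) b Q.vac
        rw [Q.U_vac 1 one _ one_pos isLor_one] at this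
        rw [conjS_tauS]
        exact this
      have u2 : Q.U 1 one b.ofLp (hA.op f Q.vac) = hA.op (tauS b f) Q.vac := by
        have := U_op hA f b Q.vac
        rw [Q.U_vac 1 one _ one_pos isLor_one] at this
        exact this
      rw [u1, u2, inner_conj_symm, inner_op, conjS_conjS]
      exact hstar _ (cp_tauS hf b)) 0
  have u0 : Q.U 1 one (0 : Mink).ofLp (hA.op (conjS f) Q.vac) = hA.op (conjS f) Q.vac :=
    U_zero_op hA (conjS f) Q.vac U_vac_zero
  rw [u0] at hz
  have h3 : inner ℂ Q.vac (hA.op f ξ) = 0 := by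
    have h4 : inner ℂ (hA.op (conjS f) Q.vac) ξ = 0 := by
      rw [← inner_conj_symm, hz, map_zero]
    rw [inner_op, conjS_conjS] at h4
    exact h4
  have e1 : inner ℂ Q.vac (hA.op f ξ) =
      inner ℂ Q.vac (hA.op f (hA.op g (hA.op h (hA.op k Q.vac)))) - W2 hA h k * W2 hA f g -
      W2 hA g k * W2 hA f h - W2 hA g h * W2 hA f k := by
    simp only [hξ, map_sub, map_smul, inner_sub_right, inner_smul_right]
    rfl
  rw [e1] at h3
  unfold W4
  linear_combination h3

lemma ext_compact {F : 𝓢(Mink, ℂ) → ℂ} (hF : Continuous F)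
    (h : ∀ f : 𝓢(Mink, ℂ), HasCompactSupport f → F f = 0) (f : 𝓢(Mink, ℂ)) : F f = 0 := by
  obtain ⟨g, hg, hlim⟩ := exists_compact_seq f
  have h1 := (hF.tendsto f).comp hlim
  have h2 : (F ∘ g) = fun _ => 0 := by
    funext n
    exact h _ (hg n)
  rw [h2] at h1
  exact (tendsto_nhds_unique h1 tendsto_const_nhds)

lemma cont_inner (hA : PField Q T A d) (u v : D) :
    Continuous fun f : 𝓢(Mink, ℂ) => inner ℂ u (hA.op f v) :=
  continuous_const.inner (hA.cont v)

theorem W4_zero (hA : PField Q T A d) (hd : 0 < d) (h1 : Lev hA 1) (f g h k : 𝓢(Mink, ℂ)) :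
    W4 hA f g h k = 0 := by
  have c1 : ∀ g, Continuous fun f => W2 hA f g := fun g => cont_inner hA _ _
  have c2 : ∀ f, Continuous fun g => W2 hA f g := by
    intro f
    have : (fun g => W2 hA f g) = fun g => inner ℂ (hA.op (conjS f) Q.vac) (hA.op g Q.vac) := by
      funext g
      rw [inner_op, conjS_conjS]
      rfl
    rw [this]
    exact cont_inner hA _ _
  have s1 : ∀ g h k : 𝓢(Mink, ℂ), HasCompactSupport g → HasCompactSupport h →
      HasCompactSupport k → ∀ f, W4 hA f g h k = 0 := by
    intro g h k hg hh hk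
    apply ext_compact
    · unfold W4
      exact (cont_inner hA _ _).sub ((((c1 g).mul continuous_const).add
        ((c1 h).mul continuous_const)).add ((c1 k).mul continuous_const))
    · intro f hf
      exact W4_compact hA hd h1 hf hg hh hk
  have s2 : ∀ f h k : 𝓢(Mink, ℂ), HasCompactSupport h →
      HasCompactSupport k → ∀ g, W4 hA f g h k = 0 := by
    intro f h k hh hk
    apply ext_compact
    · have : (fun g => W4 hA f g h k) = fun g =>
          inner ℂ (hA.op (conjS f) Q.vac) (hA.op g (hA.op h (hA.op k Q.vac))) -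
          (W2 hA f g * W2 hA h k + W2 hA f h * W2 hA g k + W2 hA f k * W2 hA g h) := by
        funext g
        rw [inner_op, conjS_conjS]
        rfl
      rw [this]
      exact (cont_inner hA _ _).sub ((((c2 f).mul continuous_const).add
        (continuous_const.mul (c1 k))).add (continuous_const.mul (c1 h)))
    · intro g hg
      exact s1 g h k hg hh hk f
  have s3 : ∀ f g k : 𝓢(Mink, ℂ), HasCompactSupport k → ∀ h, W4 hA f g h k = 0 := by
    intro f g k hk
    apply ext_compact
    · have : (fun h => W4 hA f g h k) = fun h =>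
          inner ℂ (hA.op (conjS g) (hA.op (conjS f) Q.vac)) (hA.op h (hA.op k Q.vac)) -
          (W2 hA f g * W2 hA h k + W2 hA f h * W2 hA g k + W2 hA f k * W2 hA g h) := by
        funext h
        rw [inner_op, conjS_conjS, inner_op, conjS_conjS]
        rfl
      rw [this]
      exact (cont_inner hA _ _).sub (((continuous_const.mul (c1 k)).add
        ((c2 f).mul continuous_const)).add (continuous_const.mul (c2 g)))
    · intro h hh
      exact s2 f h k hh hk g
  refine ext_compact (F := fun k => W4 hA f g h k) ?_ (fun k hk => s3 f g k hk h) k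
  have : (fun k => W4 hA f g h k) = fun k =>
      inner ℂ (hA.op (conjS h) (hA.op (conjS g) (hA.op (conjS f) Q.vac))) (hA.op k Q.vac) -
      (W2 hA f g * W2 hA h k + W2 hA f h * W2 hA g k + W2 hA f k * W2 hA g h) := by
    funext k
    rw [inner_op, conjS_conjS, inner_op, conjS_conjS, inner_op, conjS_conjS]
    rfl
  rw [this]
  exact (cont_inner hA _ _).sub (((continuous_const.mul (c2 h)).add
    (continuous_const.mul (c2 g))).add ((c2 f).mul continuous_const))

theorem free4_of_lev (hA : PField Q T A d) (hd : 0 < d) (h1 : Lev hA 1) : Q.Free4 A := by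
  intro f g h k hf hg hh hk
  obtain ⟨f, rfl⟩ := exists_fl hf
  obtain ⟨g, rfl⟩ := exists_fl hg
  obtain ⟨h, rfl⟩ := exists_fl hh
  obtain ⟨k, rfl⟩ := exists_fl hk
  exact sub_eq_zero.1 (W4_zero hA hd h1 f g h k)

lemma splits_map {α β : Type*} (F : α → β) (l : List α) :
    splits (l.map F) = (splits l).map fun p => (p.1.map F, p.2.map F) := by
  induction l with
  | nil => rfl
  | cons a l ih =>
    simp only [List.map_cons, splits, ih, List.map_append, List.map_map]
    rfl

lemma wf_eq_vev (hA : PField Q T A d) (l : List 𝓢(Mink, ℂ)) :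
    wf (fun f => hA.op f) Q.vac (vacf Q.vac) l = vev Q A (l.map fun f => toSchL f) := by
  have h : ∀ l : List 𝓢(Mink, ℂ), (l.map fun f => hA.op f).prod Q.vac =
      (l.map fun f => toSchL f).foldr (fun f v => A (ev f) v) Q.vac := by
    intro l
    induction l with
    | nil => rfl
    | cons f l ih =>
      rw [List.map_cons, List.prod_cons, Module.End.mul_apply, ih]
      rfl
  unfold wf vev
  rw [h]
  rfl

/-- One vanishing even truncated function makes a field with dilations and a unique vacuum
generalized free. -/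
theorem free4_of_trunc (hA : PField Q T A d) (hd : 0 < d) (hQ : UniqueVacuum Q) {k : ℕ}
    (hk : 2 ≤ k) (h : TruncVanish Q A (2 * k)) : Q.Free4 A := by
  obtain ⟨t, ht, hv⟩ := h
  obtain ⟨m, rfl⟩ : ∃ m, k = m + 1 := ⟨k - 1, by omega⟩
  have hm : 1 ≤ m := by omega
  apply free4_of_lev hA hd
  apply Lev.bottom hA hQ hm
  intro x l hx hl hlm
  have h1 := nest_vac (fun f => hA.op f) conjS (adj_op hA) Q.norm_vac
    (t := fun l => t (l.map fun f => toSchL f)) (fun f l => by
      rw [wf_eq_vev, List.map_cons, ht, splits_map, List.map_map]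
      simp only [wf_eq_vev]
      rfl) (m := m) (fun l hl => hv _ (by rw [List.length_map, hl])) x l hlm
  obtain ⟨r, hr⟩ := locAt_nest hA hx hl
  exact ⟨_, scal_of_vac (adj_nest _ conjS (adj_op hA) x l) hr h1⟩

end Vale.Agent.P352.H804
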