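import Vale.Agent.P352.H804.Defs
import Mathlib.Analysis.InnerProductSpace.Basic
import Mathlib.Algebra.Module.LinearMap.End
import Mathlib.Tactic.NoncommRing
import Mathlib.Tactic.Module

/-!
# Truncated functions and nested commutators

The truncated vacuum expectation values of a family of operators, and the fact that Lie elements
see only the fully connected part.
-/

open scoped ComplexConjugate

noncomputable section

namespace Vale.Agent.P352.H804

variable {ι : Type*}

/-- convolution of functions of words (dual to the unshuffle coproduct) -/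
def conv (φ ψ : List ι → ℂ) (l : List ι) : ℂ := ((splits l).map fun p => φ p.1 * ψ p.2).sum

/-- left derivative -/
def dd (f : ι) (φ : List ι → ℂ) : List ι → ℂ := fun l => φ (f :: l)

lemma dd_apply (f : ι) (φ : List ι → ℂ) (l : List ι) : dd f φ l = φ (f :: l) := rfl

lemma conv_nil (φ ψ : List ι → ℂ) : conv φ ψ [] = φ [] * ψ [] := by
  simp [conv, splits]

lemma conv_cons (φ ψ : List ι → ℂ) (f : ι) (l : List ι) :
    conv φ ψ (f :: l) = conv (dd f φ) ψ l + conv φ (dd f ψ) l := by
  simp only [conv, splits, List.map_append, List.map_map, List.sum_append]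
  rfl

lemma dd_conv (φ ψ : List ι → ℂ) (f : ι) :
    dd f (conv φ ψ) = conv (dd f φ) ψ + conv φ (dd f ψ) := by
  funext l
  exact conv_cons φ ψ f l

lemma dd_add (f : ι) (φ ψ : List ι → ℂ) : dd f (φ + ψ) = dd f φ + dd f ψ := rfl

lemma dd_sub (f : ι) (φ ψ : List ι → ℂ) : dd f (φ - ψ) = dd f φ - dd f ψ := rfl

lemma conv_add_left (φ ψ χ : List ι → ℂ) : conv (φ + ψ) χ = conv φ χ + conv ψ χ := by
  funext l
  induction l generalizing φ ψ χ with
  | nil => simp only [conv_nil, Pi.add_apply, add_mul]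
  | cons f l ih =>
    simp only [conv_cons, Pi.add_apply, dd_add, ih]
    ring

lemma conv_comm (φ ψ : List ι → ℂ) : conv φ ψ = conv ψ φ := by
  funext l
  induction l generalizing φ ψ with
  | nil => simp only [conv_nil, mul_comm]
  | cons f l ih =>
    rw [conv_cons, conv_cons, ih (dd f φ) ψ, ih φ (dd f ψ)]
    ring

lemma conv_add_right (φ ψ χ : List ι → ℂ) : conv φ (ψ + χ) = conv φ ψ + conv φ χ := by
  rw [conv_comm, conv_add_left, conv_comm ψ, conv_comm χ]

lemma conv_neg_left (φ χ : List ι → ℂ) : conv (-φ) χ = -conv φ χ := by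
  have h := conv_add_left φ (-φ) χ
  have h0 : conv (0 : List ι → ℂ) χ = 0 := by
    have := conv_add_left (0 : List ι → ℂ) 0 χ
    rw [add_zero] at this
    simpa using this
  rw [add_neg_cancel, h0] at h
  exact (neg_eq_of_add_eq_zero_right h.symm).symm

lemma conv_sub_left (φ ψ χ : List ι → ℂ) : conv (φ - ψ) χ = conv φ χ - conv ψ χ := by
  rw [sub_eq_add_neg, conv_add_left, conv_neg_left, ← sub_eq_add_neg]

lemma conv_sub_right (φ ψ χ : List ι → ℂ) : conv φ (ψ - χ) = conv φ ψ - conv φ χ := by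
  rw [conv_comm, conv_sub_left, conv_comm ψ, conv_comm χ]

lemma conv_assoc (φ ψ χ : List ι → ℂ) : conv (conv φ ψ) χ = conv φ (conv ψ χ) := by
  funext l
  induction l generalizing φ ψ χ with
  | nil => simp only [conv_nil, mul_assoc]
  | cons f l ih =>
    rw [conv_cons, conv_cons, dd_conv, dd_conv, conv_add_left, conv_add_right]
    simp only [Pi.add_apply, ih]
    ring

/-- the nested derivative `[f₁, [f₂, …, [fₘ, x]]]` -/
def nd (x : ι) : List ι → (List ι → ℂ) → (List ι → ℂ)
  | [] => dd x
  | f :: l => fun φ => nd x l (dd f φ) - dd f (nd x l φ)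

lemma nd_cons (x f : ι) (l : List ι) (φ : List ι → ℂ) :
    nd x (f :: l) φ = nd x l (dd f φ) - dd f (nd x l φ) := rfl

lemma nd_add (x : ι) (l : List ι) (φ ψ : List ι → ℂ) : nd x l (φ + ψ) = nd x l φ + nd x l ψ := by
  induction l generalizing φ ψ with
  | nil => rfl
  | cons f l ih =>
    simp only [nd_cons, dd_add, ih]
    abel

lemma nd_conv (x : ι) (l : List ι) (φ ψ : List ι → ℂ) :
    nd x l (conv φ ψ) = conv (nd x l φ) ψ + conv φ (nd x l ψ) := by
  induction l generalizing φ ψ with
  | nil => exact dd_conv φ ψ x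
  | cons f l ih =>
    simp only [nd_cons, dd_conv, nd_add, dd_add, ih, conv_sub_left, conv_sub_right]
    abel

/-- A Lie element acts on the full function through the truncated one. -/
lemma nd_of_trunc {ω t : List ι → ℂ} (h : ∀ f, dd f ω = conv (dd f t) ω) (x : ι) (l : List ι) :
    nd x l ω = conv (nd x l t) ω := by
  induction l with
  | nil => exact h x
  | cons f l ih =>
    rw [nd_cons, nd_cons, h f, nd_conv, ih, dd_conv, h f, conv_sub_left]
    rw [← conv_assoc, ← conv_assoc, conv_comm (dd f t) (nd x l t)]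
    abel

/-- vanishing on the words of length `n` -/
def Van (φ : List ι → ℂ) (n : ℕ) : Prop := ∀ l, l.length = n → φ l = 0

lemma Van.dd {φ : List ι → ℂ} {n : ℕ} (h : Van φ (n + 1)) (f : ι) : Van (dd f φ) n := by
  intro l hl
  exact h (f :: l) (by simp [hl])

lemma Van.nd {φ : List ι → ℂ} {n : ℕ} (x : ι) (l : List ι) (h : Van φ (n + (l.length + 1))) :
    Van (nd x l φ) n := by
  induction l generalizing φ n with
  | nil => exact Van.dd h x
  | cons f l ih =>
    intro w hw
    rw [nd_cons]
    have h1 : Van (H804.nd x l (H804.dd f φ)) n := by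
      apply ih
      apply Van.dd
      simpa [add_assoc] using h
    have h2 : Van (H804.dd f (H804.nd x l φ)) n := by
      apply Van.dd
      apply ih
      have e : n + 1 + (l.length + 1) = n + ((f :: l).length + 1) := by
        simp only [List.length_cons]; ring
      rw [e]
      exact h
    rw [Pi.sub_apply, h1 w hw, h2 w hw, sub_zero]

section operators

variable {D : Type*} [NormedAddCommGroup D] [InnerProductSpace ℂ D]

/-- the nested commutator `[a f₁, [a f₂, …, [a fₘ, a x]]]` -/
def nest (a : ι → Module.End ℂ D) (x : ι) : List ι → Module.End ℂ D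
  | [] => a x
  | f :: l => a f * nest a x l - nest a x l * a f

lemma nest_cons (a : ι → Module.End ℂ D) (x f : ι) (l : List ι) :
    nest a x (f :: l) = a f * nest a x l - nest a x l * a f := rfl

/-- the matrix elements of the words -/
def wf (a : ι → Module.End ℂ D) (Ω : D) (Λ : D →ₗ[ℂ] ℂ) : List ι → ℂ := fun l =>
  Λ ((l.map a).prod Ω)

lemma dd_wf (a : ι → Module.End ℂ D) (Ω : D) (Λ : D →ₗ[ℂ] ℂ) (f : ι) :
    dd f (wf a Ω Λ) = wf a Ω (Λ ∘ₗ a f) := by
  funext l
  simp [dd, wf]

lemma wf_sub (a : ι → Module.End ℂ D) (Ω : D) (Λ Λ' : D →ₗ[ℂ] ℂ) :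
    wf a Ω (Λ - Λ') = wf a Ω Λ - wf a Ω Λ' := by
  funext l
  simp [wf]

lemma nd_wf (a : ι → Module.End ℂ D) (Ω : D) (Λ : D →ₗ[ℂ] ℂ) (x : ι) (l : List ι) :
    nd x l (wf a Ω Λ) = wf a Ω (Λ ∘ₗ nest a x l) := by
  induction l generalizing Λ with
  | nil => exact dd_wf a Ω Λ x
  | cons f l ih =>
    rw [nd_cons, dd_wf, ih, ih, dd_wf, ← wf_sub, nest_cons]
    congr 1
    ext v
    simp

/-- the vacuum functional -/
def vacf (Ω : D) : D →ₗ[ℂ] ℂ where
  toFun v := inner ℂ Ω v
  map_add' _ _ := inner_add_right _ _ _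
  map_smul' _ _ := inner_smul_right _ _ _

lemma vacf_apply (Ω v : D) : vacf Ω v = inner ℂ Ω v := rfl

/-- Two Lie elements: only the fully connected part and the product of the one point parts. -/
lemma inner_nest_nest (a : ι → Module.End ℂ D) {Ω : D} (hΩ : ‖Ω‖ = 1) {t : List ι → ℂ}
    (ht : ∀ f l, wf a Ω (vacf Ω) (f :: l) =
      ((splits l).map fun p => t (f :: p.1) * wf a Ω (vacf Ω) p.2).sum)
    {n : ℕ} (hv : Van t n) (x y : ι) (l m : List ι) (hn : (m.length + 1) + (l.length + 1) = n) :
    inner ℂ Ω ((nest a x l * nest a y m) Ω) =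
      inner ℂ Ω (nest a x l Ω) * inner ℂ Ω (nest a y m Ω) := by
  set ω := wf a Ω (vacf Ω) with hω
  have h : ∀ f, dd f ω = conv (dd f t) ω := by
    intro f
    funext l
    exact ht f l
  have h0 : ω [] = 1 := by
    simp only [hω, wf, List.map_nil, List.prod_nil, Module.End.one_apply, vacf_apply]
    rw [inner_self_eq_norm_sq_to_K, hΩ]
    simp
  have e1 : nd y m (nd x l ω) [] = inner ℂ Ω ((nest a x l * nest a y m) Ω) := by
    rw [hω, nd_wf, nd_wf]
    rfl
  have e2 : ∀ z k, nd z k ω [] = inner ℂ Ω (nest a z k Ω) := by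
    intro z k
    rw [hω, nd_wf]
    rfl
  have e3 : ∀ z k, nd z k ω [] = nd z k t [] := by
    intro z k
    rw [nd_of_trunc h, conv_nil, h0, mul_one]
  have e4 : nd y m (nd x l t) [] = 0 := by
    have h1 : Van (nd x l t) (0 + (m.length + 1)) := by
      apply Van.nd
      have : 0 + (m.length + 1) + (l.length + 1) = n := by omega
      rw [this]
      exact hv
    exact (Van.nd y m h1) [] rfl
  rw [← e1, nd_of_trunc h, nd_conv, Pi.add_apply, conv_nil, conv_nil, e4, zero_mul, zero_add,
    ← e3, e2, e2]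

/-- `Y` is an adjoint of `X`. -/
def Adj (X Y : Module.End ℂ D) : Prop := ∀ v w, inner ℂ (X v) w = inner ℂ v (Y w)

lemma Adj.comm {X X' Y Y' : Module.End ℂ D} (h : Adj X X') (k : Adj Y Y') :
    Adj (X * Y - Y * X) (-(X' * Y' - Y' * X')) := by
  intro v w
  simp only [LinearMap.sub_apply, LinearMap.neg_apply, Module.End.mul_apply, inner_sub_left,
    inner_neg_right, inner_sub_right, h _ _, k _ _]
  ring

lemma Adj.symm {X Y : Module.End ℂ D} (h : Adj X Y) : Adj Y X := by
  intro v w
  rw [← inner_conj_symm, ← h, inner_conj_symm]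

lemma adj_nest (a : ι → Module.End ℂ D) (c : ι → ι) (hc : ∀ f, Adj (a f) (a (c f))) (x : ι)
    (l : List ι) : Adj (nest a x l) ((-1 : ℂ) ^ l.length • nest a (c x) (l.map c)) := by
  induction l with
  | nil => simpa [nest] using hc x
  | cons f l ih =>
    have h := (hc f).comm ih
    rw [nest_cons]
    convert h using 1
    rw [List.map_cons, nest_cons, List.length_cons, pow_succ]
    simp only [mul_smul_comm, smul_mul_assoc]
    module

/-- If the truncated function of order `2 (m + 1)` vanishes, then the nested commutators of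
`m + 1` operators act on the vacuum as multiples of the identity. -/
theorem nest_vac (a : ι → Module.End ℂ D) (c : ι → ι) (hc : ∀ f, Adj (a f) (a (c f))) {Ω : D}
    (hΩ : ‖Ω‖ = 1) {t : List ι → ℂ}
    (ht : ∀ f l, wf a Ω (vacf Ω) (f :: l) =
      ((splits l).map fun p => t (f :: p.1) * wf a Ω (vacf Ω) p.2).sum)
    {m : ℕ} (hv : Van t (2 * (m + 1))) (x : ι) (l : List ι) (hl : l.length = m) :
    nest a x l Ω = inner ℂ Ω (nest a x l Ω) • Ω := by
  have hadj := adj_nest a c hc x l
  have hΩΩ : inner ℂ Ω Ω = (1 : ℂ) := by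
    rw [inner_self_eq_norm_sq_to_K, hΩ]; simp
  set X := nest a x l with hX
  set X' := nest a (c x) (l.map c) with hX'
  set e : ℂ := (-1 : ℂ) ^ l.length with he
  have h1 : inner ℂ Ω ((X' * X) Ω) = inner ℂ Ω (X' Ω) * inner ℂ Ω (X Ω) :=
    inner_nest_nest a hΩ ht hv (c x) x (l.map c) l (by rw [List.length_map, hl]; ring)
  have h2 : inner ℂ (X Ω) (X Ω) = e * inner ℂ Ω ((X' * X) Ω) := by
    rw [hadj, LinearMap.smul_apply, inner_smul_right]
    rfl
  have h3 : inner ℂ (X Ω) Ω = e * inner ℂ Ω (X' Ω) := by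
    rw [hadj, LinearMap.smul_apply, inner_smul_right]
  have h4 : inner ℂ (X Ω) (X Ω) = inner ℂ (X Ω) Ω * inner ℂ Ω (X Ω) := by
    rw [h2, h1, h3]; ring
  have h5 : inner ℂ (X Ω - inner ℂ Ω (X Ω) • Ω) (X Ω - inner ℂ Ω (X Ω) • Ω) = (0 : ℂ) := by
    simp only [inner_sub_left, inner_sub_right, inner_smul_left, inner_smul_right, hΩΩ, h4,
      inner_conj_symm]
    ring
  exact sub_eq_zero.1 (inner_self_eq_zero.1 h5)

end operators

end Vale.Agent.P352.H804
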