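import Vale.Agent.P352.H804.Atom
import Vale.Agent.P352.H804.Lie

/-!
# Nested commutators which are multiples of the identity
-/

set_option maxSynthPendingDepth 3

open MeasureTheory SchwartzMap Complex Filter Topology
open scoped SchwartzMap ComplexConjugate ENNReal LineDeriv

namespace Vale.Agent.P352.H804

open GF (Ix V Fn Sch ev pd bar sim one bas o)

variable {D : Type*} [NormedAddCommGroup D] [InnerProductSpace ℂ D] {Q : GF.Theory D}
  {T : Ix → Ix → GF.Fld D} {A : GF.Fld D} {d : ℝ}

/-- the operator commutes with all fields in the wedge `Wd r` -/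
def LocAt (Q : GF.Theory D) (X : Module.End ℂ D) (r : ℝ) : Prop :=
  ∀ (B : GF.Fld D) (g : 𝓢(Mink, ℂ)) (v : D), Q.fld B → IsTest (Wd r) g →
    X (B (fl g) v) = B (fl g) (X v)

lemma LocAt.mono {X : Module.End ℂ D} {r s : ℝ} (h : LocAt Q X r) (hrs : r ≤ s) :
    LocAt Q X s := by
  intro B g v hB hg
  refine h B g v hB ⟨hg.1, fun x hx => ?_⟩
  have h1 : |x 0| < x 1 - s := hg.2 hx
  change |x 0| < x 1 - r
  linarith

lemma LocAt.mul {X Y : Module.End ℂ D} {r : ℝ} (h : LocAt Q X r) (k : LocAt Q Y r) :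
    LocAt Q (X * Y) r := by
  intro B g v hB hg
  rw [Module.End.mul_apply, Module.End.mul_apply, k B g v hB hg, h B g _ hB hg]

lemma LocAt.sub {X Y : Module.End ℂ D} {r : ℝ} (h : LocAt Q X r) (k : LocAt Q Y r) :
    LocAt Q (X - Y) r := by
  intro B g v hB hg
  rw [LinearMap.sub_apply, LinearMap.sub_apply, h B g v hB hg, k B g v hB hg]
  have e : X v - Y v = X v + (-1 : ℂ) • Y v := by simp [sub_eq_add_neg]
  rw [e, fld_add hB, fld_smul hB]
  simp [sub_eq_add_neg]

lemma locAt_op (hA : PField Q T A d) {f : 𝓢(Mink, ℂ)} (hf : HasCompactSupport f) :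
    ∃ r, LocAt Q (hA.op f) r := by
  obtain ⟨r, hr0, hr⟩ := exists_ball f hf
  refine ⟨2 * r + 1, fun B g v hB hg => ?_⟩
  refine hA.loc B f g v hB fun x hx y hy => ?_
  have e0 := hr x hx 0
  have e1 := hr x hx 1
  have hy' : |y 0| < y 1 - (2 * r + 1) := hg.2 hy
  have h2 : |x 0 - y 0| < |x 1 - y 1| := by
    have h3 := abs_sub (x 0) (y 0)
    have h4 := (abs_le.1 e1).2
    have h5 : y 1 - x 1 ≤ |x 1 - y 1| := by
      rw [abs_sub_comm]; exact le_abs_self _
    linarith
  have h3 := sq_lt_sq.2 h2
  simp only [mdot, PiLp.sub_apply]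
  nlinarith only [h3]

lemma locAt_nest (hA : PField Q T A d) {x : 𝓢(Mink, ℂ)} (hx : HasCompactSupport x)
    {l : List 𝓢(Mink, ℂ)} (hl : ∀ f ∈ l, HasCompactSupport f) :
    ∃ r, LocAt Q (nest (fun f => hA.op f) x l) r := by
  induction l with
  | nil => exact locAt_op hA hx
  | cons f l ih =>
    obtain ⟨r, hr⟩ := ih fun g hg => hl g (List.mem_cons_of_mem _ hg)
    obtain ⟨s, hs⟩ := locAt_op hA (hl f List.mem_cons_self)
    have h1 := hr.mono (le_max_left r s)
    have h2 := hs.mono (le_max_right r s)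
    exact ⟨max r s, (h2.mul h1).sub (h1.mul h2)⟩

/-- An operator localized away from a wedge is a multiple of the identity if it is so on the
vacuum. -/
theorem scal_of_vac {X X' : Module.End ℂ D} (hadj : Adj X X') {c : ℂ} {r : ℝ}
    (hloc : LocAt Q X r) (hvac : X Q.vac = c • Q.vac) : X = c • 1 := by
  have h1 : ∀ v, PW Q (Wd r) v → X v = c • v := by
    intro v hv
    induction hv with
    | vac => exact hvac
    | add _ _ h1 h2 => rw [map_add, h1, h2, smul_add]
    | smul k _ h1 => rw [map_smul, h1, smul_comm]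
    | @fld B g v hB hg _ h1 => rw [hloc B g v hB hg, h1, fld_smul hB]
  have h2 : ∀ χ, X' χ = conj c • χ := by
    intro χ
    have : X' χ - conj c • χ = 0 := by
      apply PW.orth (Q := Q)
      intro v hv
      refine PW.rs r (fun u hu => ?_) hv
      rw [inner_sub_left, inner_smul_left, conj_conj, hadj.symm, h1 u hu, inner_smul_right,
        sub_self]
    exact sub_eq_zero.1 this
  ext v
  refine ext_inner_right ℂ fun w => ?_
  rw [hadj, h2, inner_smul_right, LinearMap.smul_apply, Module.End.one_apply, inner_smul_left]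

lemma adj_op (hA : PField Q T A d) (f : 𝓢(Mink, ℂ)) : Adj (hA.op f) (hA.op (conjS f)) :=
  fun v w => hA.herm f v w

lemma cp_conjS {f : 𝓢(Mink, ℂ)} (hf : HasCompactSupport f) : HasCompactSupport (conjS f) := by
  refine hf.mono' ?_
  refine subset_closure.trans' ?_
  intro z hz
  simpa only [Function.mem_support, ne_eq, conjS_apply, map_eq_zero] using hz

lemma cp_tauS {f : 𝓢(Mink, ℂ)} (hf : HasCompactSupport f) (a : Mink) :
    HasCompactSupport (tauS a f) := by
  have h : IsTest Set.univ f := ⟨hf, Set.subset_univ _⟩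
  exact (h.tauS a (W' := Set.univ) fun _ _ => Set.mem_univ _).1

lemma U_sub (a : Mink) (v w : D) :
    Q.U 1 one a.ofLp (v - w) = Q.U 1 one a.ofLp v - Q.U 1 one a.ofLp w := by
  have e : v - w = v + (-1 : ℂ) • w := by simp [sub_eq_add_neg]
  rw [e, U_add one_pos isLor_one, U_smul one_pos isLor_one]
  simp [sub_eq_add_neg]

lemma U_nest (hA : PField Q T A d) (x : 𝓢(Mink, ℂ)) (l : List 𝓢(Mink, ℂ)) (a : Mink) (v : D) :
    Q.U 1 one a.ofLp (nest (fun f => hA.op f) x l v) =
      nest (fun f => hA.op f) (tauS a x) (l.map (tauS a)) (Q.U 1 one a.ofLp v) := by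
  induction l generalizing v with
  | nil => exact U_op hA x a v
  | cons f l ih =>
    rw [List.map_cons, nest_cons, nest_cons, LinearMap.sub_apply, LinearMap.sub_apply, U_sub,
      Module.End.mul_apply, Module.End.mul_apply, Module.End.mul_apply, Module.End.mul_apply, ih]
    have e : ∀ u, Q.U 1 one a.ofLp (hA.op f u) = hA.op (tauS a f) (Q.U 1 one a.ofLp u) :=
      fun u => U_op hA f a u
    rw [e, ih, e]

/-- all `m + 1`-fold commutators are multiples of the identity -/
def Lev (hA : PField Q T A d) (m : ℕ) : Prop :=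
  ∀ (x : 𝓢(Mink, ℂ)) (l : List 𝓢(Mink, ℂ)), HasCompactSupport x →
    (∀ f ∈ l, HasCompactSupport f) → l.length = m →
    ∃ c : ℂ, nest (fun f => hA.op f) x l = c • 1

/-- commutators of nests under `Lev (m + 1)` -/
lemma comm_nest (hA : PField Q T A d) {m : ℕ} (h : Lev hA (m + 1)) {x : 𝓢(Mink, ℂ)}
    (hx : HasCompactSupport x) {l : List 𝓢(Mink, ℂ)} (hl : ∀ f ∈ l, HasCompactSupport f)
    (hlm : l.length = m) {y : 𝓢(Mink, ℂ)} (hy : HasCompactSupport y)
    {k : List 𝓢(Mink, ℂ)} (hk : ∀ f ∈ k, HasCompactSupport f) :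
    (∃ c : ℂ, nest (fun f => hA.op f) y k * nest (fun f => hA.op f) x l -
      nest (fun f => hA.op f) x l * nest (fun f => hA.op f) y k = c • 1) ∧
    (k ≠ [] → nest (fun f => hA.op f) y k * nest (fun f => hA.op f) x l =
      nest (fun f => hA.op f) x l * nest (fun f => hA.op f) y k) := by
  have base : ∀ f : 𝓢(Mink, ℂ), HasCompactSupport f →
      ∃ c : ℂ, hA.op f * nest (fun f => hA.op f) x l - nest (fun f => hA.op f) x l * hA.op f =
        c • 1 := by
    intro f hf
    exact h x (f :: l) hx (fun g hg => by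
      rcases List.mem_cons.1 hg with rfl | hg
      · exact hf
      · exact hl g hg) (by simp [hlm])
  induction k with
  | nil => exact ⟨base y hy, fun h => absurd rfl h⟩
  | cons f k ih =>
    obtain ⟨⟨c, hc⟩, -⟩ := ih fun g hg => hk g (List.mem_cons_of_mem _ hg)
    obtain ⟨e, he⟩ := base f (hk f List.mem_cons_self)
    set X := nest (fun f => hA.op f) x l with hX
    set Y := nest (fun f => hA.op f) y k with hY
    have key : nest (fun f => hA.op f) y (f :: k) * X - X * nest (fun f => hA.op f) y (f :: k) =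
        0 := by
      rw [nest_cons]
      change (hA.op f * Y - Y * hA.op f) * X - X * (hA.op f * Y - Y * hA.op f) = 0
      have e1 : (hA.op f * Y - Y * hA.op f) * X - X * (hA.op f * Y - Y * hA.op f) =
          (hA.op f * (Y * X - X * Y) - (Y * X - X * Y) * hA.op f) -
          (Y * (hA.op f * X - X * hA.op f) - (hA.op f * X - X * hA.op f) * Y) := by
        noncomm_ring
      rw [e1, hc, he]
      simp
    exact ⟨⟨0, by rw [key, zero_smul]⟩, fun _ => sub_eq_zero.1 key⟩

/-- descent -/
theorem Lev.down (hA : PField Q T A d) (hQ : UniqueVacuum Q) {m : ℕ} (hm : 1 ≤ m)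
    (h : Lev hA (m + 1)) : Lev hA m := by
  intro x l hx hl hlm
  set a : 𝓢(Mink, ℂ) → Module.End ℂ D := fun f => hA.op f with ha
  set X := nest a x l with hX
  have hadj0 := adj_nest a conjS (adj_op hA) x l
  set e : ℂ := (-1 : ℂ) ^ l.length with he
  set X' := e • nest a (conjS x) (l.map conjS) with hX'
  have hadj : Adj X X' := hadj0
  have hlc : ∀ f ∈ l.map conjS, HasCompactSupport f := by
    intro f hf
    obtain ⟨g, hg, rfl⟩ := List.mem_map.1 hf
    exact cp_conjS (hl g hg)
  have hlt : ∀ b, ∀ f ∈ l.map (tauS b), HasCompactSupport f := by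
    intro b f hf
    obtain ⟨g, hg, rfl⟩ := List.mem_map.1 hf
    exact cp_tauS (hl g hg) b
  have hne : l.map conjS ≠ [] := by
    intro h0
    have := congrArg List.length h0
    simp only [List.length_map, List.length_nil] at this
    omega
  have hcomm : ∀ b : Mink, X' * nest a (tauS b x) (l.map (tauS b)) =
      nest a (tauS b x) (l.map (tauS b)) * X' := by
    intro b
    have h1 := (comm_nest hA h (cp_tauS hx b) (hlt b) (by rw [List.length_map, hlm])
      (cp_conjS hx) hlc).2 hne
    rw [hX', smul_mul_assoc, mul_smul_comm]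
    exact congrArg (fun z => e • z) h1
  have hadjb : ∀ b : Mink, Adj (nest a (tauS b x) (l.map (tauS b)))
      (e • nest a (tauS b (conjS x)) ((l.map conjS).map (tauS b))) := by
    intro b
    have h1 := adj_nest a conjS (adj_op hA) (tauS b x) (l.map (tauS b))
    rw [List.length_map, ← he, conjS_tauS] at h1
    have e2 : (l.map (tauS b)).map conjS = (l.map conjS).map (tauS b) := by
      rw [List.map_map, List.map_map]
      exact List.map_congr_left fun f _ => conjS_tauS b f
    rw [e2] at h1
    exact h1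
  have hfix : ∀ b : Mink, Q.U 1 one b.ofLp (X Q.vac) = X Q.vac := by
    apply fixed_of_two_sided (X Q.vac) (X' Q.vac)
    · have h1 := U_nest hA x l 0 Q.vac
      have e2 : l.map (tauS 0) = l := by
        conv_rhs => rw [← List.map_id l]
        exact List.map_congr_left fun f _ => tauS_zero' f
      rw [e2, tauS_zero', U_vac_zero] at h1
      exact h1
    · intro b
      have hv : Q.U 1 one b.ofLp Q.vac = Q.vac := Q.U_vac 1 one _ one_pos isLor_one
      have h1 := U_nest hA x l b Q.vac
      rw [hv] at h1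
      have h2 := U_nest hA (conjS x) (l.map conjS) b Q.vac
      rw [hv] at h2
      have h3 : Q.U 1 one b.ofLp (X' Q.vac) =
          (e • nest a (tauS b (conjS x)) ((l.map conjS).map (tauS b))) Q.vac := by
        rw [hX', LinearMap.smul_apply, U_smul one_pos isLor_one, h2]
        rfl
      have h4 : Q.U 1 one b.ofLp (X Q.vac) = nest a (tauS b x) (l.map (tauS b)) Q.vac := h1
      rw [h3, h4, inner_conj_symm]
      have h5 : inner ℂ (X Q.vac) (nest a (tauS b x) (l.map (tauS b)) Q.vac) =
          inner ℂ Q.vac ((X' * nest a (tauS b x) (l.map (tauS b))) Q.vac) := hadj _ _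
      rw [h5, hcomm b, Module.End.mul_apply, ← (hadjb b).symm, ]
  obtain ⟨c, hc⟩ := hQ (X Q.vac) (fun b => hfix (WithLp.toLp 2 b))
  obtain ⟨r, hr⟩ := locAt_nest hA hx hl
  exact ⟨c, scal_of_vac hadj hr hc⟩

theorem Lev.bottom (hA : PField Q T A d) (hQ : UniqueVacuum Q) {m : ℕ} (hm : 1 ≤ m)
    (h : Lev hA m) : Lev hA 1 := by
  induction m, hm using Nat.le_induction with
  | base => exact h
  | succ n hn ih => exact ih (h.down hA hQ hn)

end Vale.Agent.P352.H804
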